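import Vale.Agent.P060.Main

/-!
P060 (Hadwiger's conjecture): the class of finite graphs satisfying the conjecture is closed under
all products between the strong and the lexicographic one, under joins and under Mycielskians.
-/

set_option autoImplicit false

namespace Vale.Agent.Results.P060.ProductsJoinsMycielskians

open Vale.Agent.P060

/-- (1) If `G` and `H` satisfy Hadwiger's conjecture, so does every graph between their strong and
their lexicographic product (in particular both products). (2) So does their join.
(3) If `G` satisfies Hadwiger's conjecture, so does its Mycielskian. -/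
theorem result :
    (∀ (V W : Type) [Finite V] [Finite W] (G : SimpleGraph V) (H : SimpleGraph W)
      (K : SimpleGraph (V × W)), strong G H ≤ K → K ≤ lexi G H → Hadwiger G → Hadwiger H →
      Hadwiger K) ∧
    (∀ (V W : Type) [Finite V] [Finite W] (G : SimpleGraph V) (H : SimpleGraph W),
      Hadwiger G → Hadwiger H → Hadwiger (joinG G H)) ∧
    (∀ (V : Type) [Finite V] (G : SimpleGraph V), Hadwiger G → Hadwiger (myc G)) :=
  ⟨fun _ _ _ _ G H K h1 h2 hG hH => hadwiger_prod G H K h1 h2 hG hH,
    fun _ _ _ _ G H hG hH => hadwiger_join G H hG hH, fun _ _ G hG => hadwiger_myc G hG⟩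

end Vale.Agent.Results.P060.ProductsJoinsMycielskians
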